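import Vale.Agent.P042.Main3

namespace Vale.Agent.Results.P042.SquareLower3

theorem result : ∃ c : ℝ, 0 < c ∧ ∀ N : ℕ, 1 ≤ N → ∃ A : Finset ℕ, (∀ a ∈ A, 1 ≤ a ∧ a ≤ N) ∧
    (∀ a ∈ A, ∀ b ∈ A, ∀ m : ℕ, 1 ≤ m → (a : ℤ) - (b : ℤ) ≠ (m : ℤ) ^ 2) ∧
    c * (N : ℝ) ^ (377 / 500 : ℝ) ≤ (A.card : ℝ) := by
  obtain ⟨B, n, Q, B1, hQ, hB, hG⟩ := P042.pack3
  have B0 : (0 : ℝ) < B := by exact_mod_cast (by omega : 0 < B)
  refine ⟨((24 * B : ℝ) ^ (377 / 500 : ℝ))⁻¹, by positivity, fun N hN => ?_⟩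
  rw [inv_mul_eq_div]
  simp only [div_le_iff₀ (show (0 : ℝ) < (24 * B : ℝ) ^ (377 / 500 : ℝ) by positivity)]
  by_cases h5 : N < 12
  · refine ⟨{1}, by simpa using hN, fun a ha b hb m hm => ?_, ?_⟩
    · rw [Finset.mem_singleton] at ha hb
      subst ha; subst hb
      have : (0 : ℤ) < m := by exact_mod_cast hm
      nlinarith
    · simp only [Finset.card_singleton, Nat.cast_one, one_mul]
      gcongr
      exact_mod_cast (by omega : N ≤ 24 * B)
  obtain ⟨H, hH, eH⟩ := hG (Nat.log B (N / 12))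
  obtain ⟨A, h1, h2, h3⟩ := hH.set (by positivity)
  have a1 := Nat.pow_log_le_self B (x := N / 12) (by omega)
  have a2 := Nat.lt_pow_succ_log_self B1 (N / 12)
  generalize Nat.log B (N / 12) = K at *
  refine ⟨A, fun a ha => ⟨(h2 a ha).1, (h2 a ha).2.trans ?_⟩, h3, ?_⟩
  · omega
  · have a3 : (N : ℝ) ≤ B ^ K * (24 * B) := by
      rw [pow_succ] at a2
      exact_mod_cast (by nlinarith [Nat.div_add_mod N 12, Nat.mod_lt N (by norm_num : 0 < 12)] :
        N ≤ B ^ K * (24 * B))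
    have a4 : ((B : ℝ) ^ K) ^ (377 / 500 : ℝ) ≤ A.card := by
      rw [h1]
      refine le_of_pow_le_pow_left₀ (n := 500) (by norm_num) (by positivity) ?_
      rw [← Real.rpow_natCast _ 500, ← Real.rpow_mul (by positivity),
        show (377 / 500 : ℝ) * (500 : ℕ) = (377 : ℕ) by norm_num, Real.rpow_natCast]
      have := Nat.pow_le_pow_left hB K
      rw [← pow_mul, ← pow_mul, mul_comm 377, mul_comm 500, pow_mul, pow_mul] at this
      exact_mod_cast this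
    calc _ ≤ ((B : ℝ) ^ K * (24 * B)) ^ (377 / 500 : ℝ) := by gcongr
      _ = _ := Real.mul_rpow (by positivity) (by positivity)
      _ ≤ _ := by gcongr

end Vale.Agent.Results.P042.SquareLower3
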